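import Vale.Agent.P151W95.Defs

/-! P165: the uniqueness threshold and the vertex isoperimetric constant. -/

namespace Vale.Agent.P165W95

open Vale.Agent.P151W95

universe u

variable {V : Type u}

/-- `p_u = inf {p ∈ [0,1] : P_p(N_∞ = 1) = 1}`. -/
noncomputable def pu (G : SimpleGraph V) : unitInterval :=
  sInf {p | bond G p {ω | numInf G ω = 1} = 1}

/-- `∂_V A`, the set of vertices outside `A` with a neighbour in `A`. -/
def boundary (G : SimpleGraph V) (A : Set V) : Set V := {y | y ∉ A ∧ ∃ x ∈ A, G.Adj x y}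

/-- `h_V(G) = inf {|∂_V A| / |A| : A finite, nonempty}`. -/
noncomputable def hV (G : SimpleGraph V) : ℝ :=
  sInf {r | ∃ A : Set V, A.Finite ∧ A.Nonempty ∧ r = ((boundary G A).ncard : ℝ) / A.ncard}

end Vale.Agent.P165W95
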