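import Vale.Agent.P151W95.Kit
import Vale.Agent.P165W95.Defs
import Vale.Agent.P165.H794.Main

/-! P165: comparison of the thresholds with those of the set model, and the main theorem. -/

namespace Vale.Agent.P165W95

open MeasureTheory ProbabilityTheory Vale.Agent.P151W95

universe u v

variable {V : Type u} {G : SimpleGraph V}

theorem pu_mem [Infinite V] [Countable V] (hG : G.Connected) :
    (1 : unitInterval) ∈ {p | bond G p {ω | numInf G ω = 1} = 1} := bond_one hG

theorem pc_mem [Infinite V] [Countable V] (hG : G.Connected) :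
    (1 : unitInterval) ∈ {p | 0 < bond G p {ω | 1 ≤ numInf G ω}} :=
  (zero_lt_one.trans_eq (bond_one hG).symm).trans_le (measure_mono fun _ h => Eq.ge h)

theorem coe_pc [Infinite V] [Countable V] (hG : G.Connected) : (pc G : ℝ) = P165.pc G := by
  refine (coe_sInf (pc_mem hG)).trans ?_
  unfold P165.pc
  congr 1
  ext p
  refine exists_congr fun h => ?_
  exact iff_of_eq (congrArg (0 < ·) (bond_apply _ meas_ge))

theorem coe_pu [Infinite V] [Countable V] (hG : G.Connected) : (pu G : ℝ) = P165.pu G := by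
  refine (coe_sInf (pu_mem hG)).trans ?_
  unfold P165.pu
  congr 1
  ext p
  refine exists_congr fun h => ?_
  exact iff_of_eq (congrArg (· = 1) (bond_apply _ meas_one))

theorem hV_eq (G : SimpleGraph V) : hV G = P165.vertexCheeger G := by
  unfold hV P165.vertexCheeger iInf
  congr 1
  ext r
  constructor
  · rintro ⟨A, hA, hne, rfl⟩
    refine ⟨⟨hA.toFinset, hA.toFinset_nonempty.2 hne⟩, ?_⟩
    simp [P165.vertexBoundary, boundary, Set.ncard_eq_toFinset_card A hA]
  · rintro ⟨⟨A, hne⟩, rfl⟩
    exact ⟨A, A.finite_toSet, hne, by simp [P165.vertexBoundary, boundary]⟩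

theorem boundary_finite [G.LocallyFinite] {A : Set V} (hA : A.Finite) : (boundary G A).Finite :=
  (hA.biUnion fun x _ => (G.neighborSet x).toFinite).subset fun _ ⟨_, _, hx, h⟩ =>
    Set.mem_biUnion hx h

theorem main [Infinite V] (G : SimpleGraph V) [G.LocallyFinite] (hG : G.Connected) :
    (MeasurableSet {ω | 1 ≤ numInf G ω} ∧ MeasurableSet {ω | numInf G ω = 1}) ∧
    (∀ p, IsBond G p (bond G p) fun e ω => ω e) ∧
    (∀ (p : unitInterval) (Ω : Type v) [MeasurableSpace Ω] (P : Measure Ω)
      (X : G.edgeSet → Ω → Bool), IsBond G p P X → HasLaw (fun ω e => X e ω) (bond G p) P) ∧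
    bond G 1 {ω | numInf G ω = 1} = 1 ∧
    (∀ A : Set V, A.Finite → (boundary G A).Finite) ∧
    (QuasiTransitive G → 0 < hV G → pc G < pu G) := by
  have : Countable V := P165.countable_of_connected G hG
  refine ⟨⟨meas_toSet meas_ge, meas_toSet meas_one⟩, isBond_bond G, fun _ _ _ _ _ h => h.hasLaw,
    bond_one hG, fun _ => boundary_finite, fun hqt hna => ?_⟩
  obtain ⟨⟨-, h1, h2⟩, -, -⟩ := P165.H794.main_universe G hG hqt.finset (hV_eq G ▸ hna)
  have h := h1.trans_le h2
  rw [← coe_pc hG, ← coe_pu hG] at h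
  exact h

end Vale.Agent.P165W95
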